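import Crest.Agent.X212.Lpe67.One
import Crest.Agent.X212.Cay24.Ge
import Crest.Agent.X212.Gb50.Ge
import Crest.Agent.X212.Lw78.Mov
import Crest.Agent.X212.Tmc7.Job
import Crest.Agent.X212.Sw21.Gz

/-! # Row 212, GL (helper67): the leaves LIP-E and LIP-S -/

set_option autoImplicit false
set_option linter.unusedSectionVars false
set_option maxSynthPendingDepth 3
noncomputable section
open scoped Manifold ContDiff Topology InnerProductSpace ENNReal NNReal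
open MeasureTheory Set Function Filter Metric

namespace Crest.Agent.X212.Lpe67
open An Sob92 Prm93 Mod61 Mon62 Gl67 Gla92 Nd18 Gj67

section fmt
variable {E : Type} [NormedAddCommGroup E] [NormedSpace ℝ E] [FiniteDimensional ℝ E]
  [MeasurableSpace E] [BorelSpace E]
  {HM : Type} [TopologicalSpace HM] {I : ModelWithCorners ℝ E HM} [I.Boundaryless]
  {M : Type} [TopologicalSpace M] [ChartedSpace HM M] [IsManifold I ∞ M]
  [MeasurableSpace M] [T2Space M] [BorelSpace M] [SecondCountableTopology M]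
  {ι lam : Type} [Fintype ι] [Fintype lam]
  {T U Up R : Type} [NormedAddCommGroup T] [NormedSpace ℝ T] [NormedAddCommGroup U]
  [NormedSpace ℝ U] [NormedAddCommGroup Up] [NormedSpace ℝ Up] [NormedAddCommGroup R]
  [NormedSpace ℝ R] {N : ℕ} {Jc : En (Fin N)} {r : ℝ} {C C' : ℕ → ℝ}

theorem fu_mono {𝔉 : Fam I M ι lam T} (h : FU 𝔉 r C) (e : ∀ k, C k ≤ C' k) : FU 𝔉 r C' :=
  have u := fun {A : Type} [NormedAddCommGroup A] [NormedSpace ℝ A] {f : T → M → A}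
    (a : UBn 𝔉.F0.toPre r C f) => show UBn 𝔉.F0.toPre r C' f from
      fun k n t ht => (a k n t ht).trans (e _)
  ⟨h.sub, Ell97.Tame_mono h.t0 e, fun t ht => Ell97.Tame_mono (h.tG t ht) e,
    fun a b c d => Ell97.CBs_mono (h.o a b c d) e, Ell97.CBs_mono h.l e, fun a b => u (h.S a b),
    fun a b => u (h.Si a b), fun a b k => u (h.cf a b k), fun a => u (h.la a),
    fun a b k => u (h.c a b k), fun a => u (h.dv a), fun a => u (h.a a),
    h.μ.imp fun _ k => ⟨k.1, u k.2.1, k.2.2⟩⟩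

theorem su_mono {𝔉 : Fam I M ι lam T} {s : Sid 𝔉 N Jc U Up R} (h : SU s C) (e : ∀ k, C k ≤ C' k) :
    SU s C' :=
  ⟨Ell97.CBs_mono h.p e, fun a => Ell97.CBs_mono (h.ρ a) e, Ell97.CBs_mono h.j e,
    fun a => Ell97.CBs_mono (h.A a) e, Ell97.CBs_mono h.Φ e, Ell97.CBs_mono h.b e,
    fun a => Ell97.CBs_mono (h.dr a) e, fun a => Ell97.CBs_mono (h.h a) e⟩

variable {B : Base M ι lam} {F0 : Fr I M ι} {G0 : Geo I M ι lam} {G : T → Geo I M ι lam}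
  {Q : Set T} {T' : Type} [NormedAddCommGroup T'] [NormedSpace ℝ T'] {G' : T' → Geo I M ι lam}
  {Q' : Set T'} (s : Sid (Met55.fam B F0 G0 G Q univ univ) N Jc U Up R)

variable (G' Q') in
/-- the same data over another family -/
@[reducible] def ov : Sid (Met55.fam B F0 G0 G' Q' univ univ) N Jc U Up R :=
  ⟨s.p, s.ρ, s.j, s.A0, s.Φ0, s.b, s.dr, s.bp, s.mo, s.lo, s.ht, s.sh⟩

theorem mo_ov (e : G' 0 = G 0) {δ : ℝ} {k : ℕ} (a : Mo (fun _ : Unit => s) δ k) :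
    Mo (fun _ : Unit => ov G' Q' s) δ k :=
  have b : ∀ u x, bC (ov G' Q' s) u x = bC s u x := fun u x =>
    (congrArg (fun g => bC (ov (fun _ : ℝ => g) univ s) u x) e :)
  let ⟨n, c, γ, b1, b2, b3⟩ := a.C
  ⟨⟨a.Φ.ub, a.Φ.n⟩, n, c, γ, b1, fun i => ⟨(b2 i).ub, (b2 i).n⟩, fun i u x => by
    rw [b, b]; exact b3 i u x⟩

end fmt

open M An.Job Loc45

variable {Wi : Type} {X : Mf 4} {A κ lam : Type} [Fintype A] [Fintype κ] [Fintype lam]
  [DecidableEq lam] {M : Mark X A κ} {W : World M} {L : ML M lam} {Λ : Lns W L}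
  {A' h : Type} [Fintype A'] [DecidableEq A'] [Fintype h] {r n k : ℕ}
  {J : Job Wi Λ A' h r n} {σ : Cel A'} {a : A'}
  {U Up R : Type} [NormedAddCommGroup U] [NormedSpace ℝ U] [FiniteDimensional ℝ U]
  [NormedAddCommGroup Up] [NormedSpace ℝ Up] [NormedAddCommGroup R] [NormedSpace ℝ R]
  {d : Dat J σ a U Up R} {q₀ : Wi →₀ ℝ} {δ : ℝ}

/-- the parameters of the long necks -/
theorem thX {ι : Type} {τ : ι → d.Ta} (hτ : ∀ i, |(τ i : ℝ)| ≤ 2) (o : ∀ i, IsOpen (d.FX (τ i)).Q)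
    {r₀ ρ : ℝ} (e : ∀ i, closedBall 0 r₀ ⊆ QX d (τ i) ρ) :
    Th J (fun i => d.Gh (τ i)) (fun i => d.s (τ i)) (fun i => QX d (τ i) ρ) r₀ := by
  have m : ∀ i, ∀ t ∈ QX d (τ i) ρ, ((τ i : ℝ), t) ∈ closedBall (0 : ℝ × Tc σ a) (max 2 ρ) :=
    fun i t ht => mem_closedBall_zero_iff.2 (max_le_max (hτ i) (mem_ball_zero_iff.1 ht.2).le)
  have c := Gb50.cd_ee (σ := σ) (a := a) d.y.s
  exact ⟨.of (h1 := fun i => (o i).inter isOpen_ball) (h2 := e) (((UC.const ⟨2, hτ⟩).prod (UC.id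
    ⟨r₀, fun _ _ => mem_closedBall_zero_iff.1⟩)).cmp_fixed isOpen_univ (isCompact_closedBall _ _)
      (subset_univ _) c.contDiffOn (fun _ => mapsTo_univ _ _) fun i t ht => m i t (e i ht)),
    _, (isCompact_closedBall _ _).image c.continuous, fun i t ht => mem_image_of_mem _ (m i t ht)⟩

variable (H : d.OK q₀ δ) (hk : 7 ≤ k)
include H hk

omit hk in
theorem δ_lt (x : A) : 2 * δ < (J.xs x).N.δ := by linarith [H.δ0, H.δ1.2 x]

/-- **LEAF LIP-E** -/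
theorem lipE : LipE d q₀ δ k :=
  let ⟨ok, _, r0, _, fu, su⟩ := Gb50.geoE H
  lip1 (J := jb J d.x) (c := J.cf a) (G0 := J.G _ d.y.s) (θ := θE d) (Q := QE d) (s := Loc45.E d)
    (Cay24.jbOK H.ok d.x) hk d.cm ok r0 fu su (Cay24.gmE H) H.δ0.le H.δ2 ((Gb50.cd_ee d.y.s).comp Cay24.cd_sq) (Cay24.tmE H) (Cay24.ctE H) (H.b0.imp
      (fun e => ⟨e.1, fun x b => ⟨δ_lt H x, Cay24.nkE H x b⟩⟩) fun e => ⟨e.1, mo_ov d.S
        (congrArg (Λ.G J.m _) ((Gb50.thE_zero H).trans (congrArg J.Θ (Gb50.s_one H).symm)) :)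
        (Lw78.Mv.mov H (e.1 _).1 e.2 k).S⟩) q₀

/-- **LEAF LIP-S** with the smoothness of the values -/
theorem okLipS (q : Wi →₀ ℝ) :
    ∃ ρ C : ℝ≥0, 0 < ρ ∧ (d.sS q).Ok ρ ∧ (d.sS q).Lip δ k ρ ρ C :=
  let ⟨_, r0, C, fu, _⟩ := Gb50.geo_fam H
  let ⟨C', su⟩ := (Gb50.su_E H).ex
  have su := eventually_top.1 su ()
  lip1 (s := d.S) (C := fun k => max (C k) (C' k)) H.ok hk d.cm H.okS r0
    (fu_mono fu fun _ => le_max_left _ _) (su_mono ⟨su.p, su.ρ, su.j, su.A, su.Φ, su.b, su.dr, su.h⟩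
      fun _ => le_max_right _ _) (Sw21.gmS H) H.δ0.le H.δ2
    ((Gb50.cd_ee d.y.s).comp (contDiff_const.prodMk contDiff_id)) (Tmc7.tmS H) (Tmc7.ctS H)
    (H.b0.imp (fun e => ⟨e.1, fun x b => ⟨δ_lt H x, Gnk23.nkS H x b⟩⟩) fun e =>
      ⟨e.1, (Lw78.Mv.mov H (e.1 _).1 e.2 k).S⟩) q

theorem lipS : d.LipS q₀ δ k := let ⟨ρ, C, a, _, b⟩ := okLipS H hk q₀; ⟨ρ, C, a, b⟩

end Crest.Agent.X212.Lpe67
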