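import Crest.Agent.X212.Gla92.Lo

/-! # Row 212, GL (helper67): explicit bounds give the uniform geometry `Gla92.Un` -/

set_option autoImplicit false
set_option linter.unusedSectionVars false
set_option maxSynthPendingDepth 3
noncomputable section
open scoped Manifold ContDiff Topology InnerProductSpace ENNReal NNReal
open MeasureTheory Set Function Filter Metric

namespace Crest.Agent.X212.Lpe67
open An Sob92 Prm93 Mod61 Mon62 Gl67 Gla92
open Gj67 (FU SU UBn)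
open Cht98 (Agr)

variable {E : Type} [NormedAddCommGroup E] [NormedSpace ℝ E] [FiniteDimensional ℝ E]
  [MeasurableSpace E] [BorelSpace E]
  {HM : Type} [TopologicalSpace HM] {I : ModelWithCorners ℝ E HM} [I.Boundaryless]
  {M : Type} [TopologicalSpace M] [ChartedSpace HM M] [IsManifold I ∞ M]
  [MeasurableSpace M] [T2Space M] [BorelSpace M] [SecondCountableTopology M]
  {ι lam : Type} [Fintype ι] [Fintype lam]
  {T U Up R : Type} [NormedAddCommGroup T] [NormedSpace ℝ T] [NormedAddCommGroup U]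
  [NormedSpace ℝ U] [NormedAddCommGroup Up] [NormedSpace ℝ Up] [NormedAddCommGroup R]
  [NormedSpace ℝ R] {N : ℕ} {Jc : En (Fin N)} {J : Type} {𝔉 : J → Fam I M ι lam T}
  {A : Type} [NormedAddCommGroup A] [NormedSpace ℝ A]
  {s : ∀ i, Sid (𝔉 i) N Jc U Up R} {Ω : Set M} {δ r r₀ ρ : ℝ} {C : ℕ → ℝ} {Q' : Set T}

theorem bn_of {B : J → Set T} (n : ℕ) : ∀ {Z : J → Type} [∀ i, NormedAddCommGroup (Z i)]
    [∀ i, NormedSpace ℝ (Z i)] {f : ∀ i, T → Z i},
    (∀ m, ∃ K, ∀ i, ∀ t ∈ B i, ‖iteratedFDeriv ℝ m (f i) t‖ ≤ K) → Bn (X := fun _ => T) B n f := by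
  have h0 : ∀ {Z : J → Type} [∀ i, NormedAddCommGroup (Z i)] [∀ i, NormedSpace ℝ (Z i)]
      {f : ∀ i, T → Z i}, (∀ m, ∃ K, ∀ i, ∀ t ∈ B i, ‖iteratedFDeriv ℝ m (f i) t‖ ≤ K) →
      Bd (X := fun _ => T) B f := fun h => (h 0).imp fun _ k i t ht =>
        (norm_iteratedFDeriv_zero ..).symm.trans_le (k i t ht)
  induction n with
  | zero => exact h0
  | succ n ih =>
    exact fun h => ⟨h0 h, ih fun m => by simpa only [norm_iteratedFDeriv_fderiv] using h (m + 1)⟩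

theorem ut_of {f : J → T → M → A} (sb : ∀ i, SB (P0 𝔉 i) (𝔉 i).Q (f i))
    (ub : ∀ i, UBn (𝔉 i).F0.toPre r C (f i)) (hr : r₀ ≤ r) :
    UT (fun i => res (𝔉 i) Q') r₀ f :=
  ⟨fun i => (sb i).mono inter_subset_left, fun k n => bn_of n fun m =>
    ⟨C (k + m), fun i t ht => ub i k m t (closedBall_subset_closedBall hr ht)⟩⟩

theorem le_exp {μ : Measure M} {g : M → ℝ} {c : ℝ} (h : ∀ x, ‖g x‖ ≤ c) :
    μ ≤ (Real.exp c).toNNReal • μ.withDensity fun x => ENNReal.ofReal (Real.exp (g x)) := by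
  have : (μ.withDensity fun _ => ENNReal.ofReal (Real.exp (-c))) ≤ _ :=
    withDensity_mono (g := fun x => ENNReal.ofReal (Real.exp (g x))) (.of_forall fun x =>
      ENNReal.ofReal_le_ofReal (Real.exp_le_exp.2 (abs_le.1 (h x)).1))
  rw [withDensity_const] at this
  refine Measure.le_iff'.2 fun S => le_trans (le_of_eq ?_)
    (mul_le_mul_right (Measure.le_iff'.1 this S) (ENNReal.ofReal (Real.exp c)))
  rw [Measure.smul_apply, smul_eq_mul, ← mul_assoc, ← ENNReal.ofReal_mul (Real.exp_pos _).le,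
    ← Real.exp_add, add_neg_cancel, Real.exp_zero, ENNReal.ofReal_one, one_mul]

/-- the transition data are trivial where the background is the reference background -/
def Lt (𝔉 : Fam I M ι lam T) : Prop := ∀ t ∈ 𝔉.Q, ∀ O, Agr 𝔉.G0 (𝔉.G t) O → ∀ x ∈ O,
  (∀ a b, 𝔉.S t x a b = 𝔉.B.P a b x) ∧ 𝔉.cf t x = 0 ∧ 𝔉.la t x = 0

theorem lt_fam {B : Base M ι lam} {G0 : Geo I M ι lam} {G : T → Geo I M ι lam} {Q : Set T}
    {O O' : Set M} (h : G0.OK B) : Lt (Met55.fam B G0.F G0 G Q O O') := fun _ _ _ k _ hx =>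
  ⟨fun a b => (k.S hx a b).1.trans (congrFun (congrFun (congrFun h.P a) b) _), k.cf hx, k.la h hx⟩

theorem lt_cst {B : Base M ι lam} {G : Geo I M ι lam} {O O' : Set M} :
    Lt (Nk89.cst T B G O O') := fun _ _ _ _ _ _ => ⟨fun _ _ => rfl, rfl, rfl⟩

theorem ok_rs {𝔉 : Fam I M ι lam T} {s : Sid 𝔉 N Jc U Up R} (h : s.OK) (hρ : 0 < ρ) :
    (rs s (ball 0 ρ)).OK :=
  ⟨ok_res h.fam isOpen_ball, h.om, ⟨h.q0, mem_ball_self hρ⟩, h.ok, h.conn, h.cp, h.cρ, h.cj, h.cA,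
    h.cΦ, h.pos, h.cb, h.pb, h.cd, h.bp, h.mo, h.lo, h.h0, h.ch⟩

theorem lo_rs (L : Lo s Ω) : Lo (fun i => rs (s i) Q') Ω := ⟨L.op, L.e, L.μ, L.ht⟩

theorem lo_fix {𝔉 : Fam I M ι lam T} (s : Sid 𝔉 N Jc U Up R) : Lo (fun _ : J => s) univ :=
  ⟨isOpen_univ, fun _ _ _ _ _ => rfl, fun _ _ => rfl, fun _ _ _ _ => rfl⟩

theorem gm_rs (G : Gm s Ω) : Gm (fun i => rs (s i) Q') Ω :=
  have b := fun {V : Type} [NormedAddCommGroup V] [NormedSpace ℝ V] {f : J → M → V}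
    (h : Bv0 𝔉 f) => show Bv0 (fun i => res (𝔉 i) Q') f from ⟨h.ub, h.hc, h.vol⟩
  ⟨G.loc.imp fun _ k => ⟨k.1, k.2.1, fun i t ht => k.2.2 i t ht.1⟩, fun i t ht => G.gr i t ht.1,
    fun i t ht => G.lop i t ht.1, b G.bp, b G.mo, b G.lo, G.pk⟩

/-- **uniform geometry over a small ball** -/
theorem un_of (ok : ∀ i, (s i).OK) (fu : ∀ i, FU (𝔉 i) r C) (su : ∀ i, SU (s i) C)
    (lt : ∀ i, Lt (𝔉 i)) (L : Lo s Ω) (G : Gm s Ω) (h0 : 0 ≤ δ) (h1 : δ ≤ 1 / 4) (r0 : 0 ≤ r₀)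
    (r1 : r₀ < ρ) (r2 : ρ ≤ r) : Un (fun i => rs (s i) (ball 0 ρ)) δ r₀ := by
  have F := fun i => (ok i).fam
  have hr := r1.le.trans r2
  have sub : ∀ i, closedBall 0 r₀ ⊆ (res (𝔉 i) (ball 0 ρ)).Q := fun i t ht =>
    ⟨(fu i).sub (closedBall_subset_closedBall hr ht), closedBall_subset_ball r1 ht⟩
  choose g g1 g2 g3 using fun i => (fu i).μ
  have low : ∀ i, ∀ t ∈ (res (𝔉 i) (ball 0 ρ)).Q,
      (𝔉 i).F0.μ ≤ (Real.exp (C 0)).toNNReal • ((𝔉 i).G t).F.μ := fun i t ht => by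
    have := CB_mono (B.CB _) ((norm_iteratedFDeriv_zero ..).symm.trans_le
      (g2 i 0 0 t (closedBall_subset_closedBall r2 (ball_subset_closedBall ht.2))))
    rw [fn_toB ((g1 i).cb _ ht.1)] at this
    rw [g3 i t ht.1]
    exact le_exp (CB_bound this)
  obtain ⟨K, k1, k2, k3⟩ := G.loc
  obtain ⟨χ, c1, c2, c3, -, c4⟩ := Met55.exists_cut (I := I) k1 L.op k2
  have off : ∀ {x}, χ x ≠ 1 → x ∈ Kᶜ := fun e k => e (c4 _ k).self_of_nhds
  have l := fun i t (ht : t ∈ (res (𝔉 i) (ball 0 ρ)).Q) x (e : χ x ≠ 1) =>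
    lt i t ht.1 _ (k3 i t ht.1) x (off e)
  have m := fun i t (ht : t ∈ (res (𝔉 i) (ball 0 ρ)).Q) => (k3 i t ht.1).rel
  exact ⟨fun i => ok_rs (ok i) (r0.trans_lt r1), h0, r0, sub, ⟨C, fun i => (fu i).t0⟩,
    fun a b c d => ⟨C, fun i => (fu i).o a b c d⟩, ⟨C, fun i => (su i).p⟩,
    fun a => ⟨C, fun i => (su i).ρ a⟩, ⟨C, fun i => (su i).j⟩, fun a => ⟨C, fun i => (su i).A a⟩,
    ⟨C, fun i => (su i).Φ⟩, ⟨C, fun i => (su i).b⟩, fun a => ⟨C, fun i => (su i).dr a⟩,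
    fun a => ⟨C, fun i => (su i).h a⟩,
    fun a b => ut_of (fun i => (F i).sS a b) (fun i => (fu i).S a b) hr,
    fun a b => ut_of (fun i => (F i).sSi a b) (fun i => (fu i).Si a b) hr,
    fun a b k => ut_of (fun i => (F i).scf a b k) (fun i => (fu i).cf a b k) hr,
    fun a => ut_of (fun i => (F i).sla a) (fun i => (fu i).la a) hr,
    fun a b k => ut_of (fun i => (F i).sc a b k) (fun i => (fu i).c a b k) hr,
    fun a => ut_of (fun i => (F i).sdv a) (fun i => (fu i).dv a) hr,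
    ⟨_, (ut_of g1 g2 hr).comp (fun i => (F i).opn.inter isOpen_ball) sub Real.contDiff_exp,
      fun i t ht => ⟨fun _ => (Real.exp_pos _).le, g3 i t ht.1⟩⟩,
    fun i t ht => ⟨_, low i t ht⟩, ⟨_, fun i t ht => low i t (sub i ht)⟩,
    ⟨fun _ => χ, (lo_rs L).bu c1 c2 c3, fun i =>
      ⟨fun a b t ht u hu x e => ((l i t ht x e).1 a b).trans ((l i u hu x e).1 a b).symm,
      fun a b k t ht u hu x e => congrArg (· a b k) ((l i t ht x e).2.1.trans (l i u hu x e).2.1.symm),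
      fun a t ht u hu x e => congrFun ((l i t ht x e).2.2.trans (l i u hu x e).2.2.symm) a,
      fun a b k t ht u hu x e => ((m i t ht).c (off e) a b k).trans ((m i u hu).c (off e) a b k).symm,
      fun a t ht u hu x e => ((m i t ht).dv (off e) ((F i).G t ht.1).vol (F i).G0.vol a).trans
        ((m i u hu).dv (off e) ((F i).G u hu.1).vol (F i).G0.vol a).symm⟩⟩,
    fun i t ht x => (mul_le_mul_of_nonneg_left (G.gr i t ht.1 x) (by positivity)).trans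
      (by nlinarith)⟩

end Crest.Agent.X212.Lpe67
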