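import Crest.Agent.X212.Gla92.Lip
import Crest.Agent.X212.Lpe67.Un

/-! # Row 212, GL (helper67): the equations of a job lie in the calculus -/

set_option autoImplicit false
set_option linter.unusedSectionVars false
set_option maxSynthPendingDepth 3
noncomputable section
open scoped Manifold ContDiff Topology InnerProductSpace ENNReal NNReal
open MeasureTheory Set Function Filter Metric

namespace Crest.Agent.X212.Lpe67
open An Sob92 Prm93 Mod61 Mon62 Mon62.Dm Gl67 Gla92 Nd18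

section fmt
variable {E : Type} [NormedAddCommGroup E] [NormedSpace ℝ E] [FiniteDimensional ℝ E]
  [MeasurableSpace E] [BorelSpace E]
  {HM : Type} [TopologicalSpace HM] {I : ModelWithCorners ℝ E HM} [I.Boundaryless]
  {M : Type} [TopologicalSpace M] [ChartedSpace HM M] [IsManifold I ∞ M]
  [MeasurableSpace M] [T2Space M] [BorelSpace M] [SecondCountableTopology M]
  {ι lam h : Type} [Fintype ι] [Fintype lam] [Fintype h]
  {T U Up R : Type} [NormedAddCommGroup T] [NormedSpace ℝ T] [NormedAddCommGroup U]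
  [NormedSpace ℝ U] [NormedAddCommGroup Up] [NormedSpace ℝ Up] [NormedAddCommGroup R]
  [NormedSpace ℝ R] {N r n m k : ℕ} {Jc : En (Fin N)} {J : Type} {𝔉 : J → Fam I M ι lam T}
  {s : ∀ i, Sid (𝔉 i) N Jc U Up R} {δ r₀ : ℝ} {ρ : ℝ≥0} {H : Un s δ r₀} {c : Cm N r h R}
  {ε : Prop} {e τ : J → T → PtX M ι lam r n m}

/-- bounded coefficients that depend on the side -/
theorem cl_cst (hk : 4 ≤ k) {γ : J → ℝ} (hγ : Bv γ) (a : H.Cl c k ρ ε e) :
    H.Cl c k ρ ε fun i t => γ i • e i t := by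
  have g := Lc.fixed (H.ubW (h := h) (r := r) (k := k) (ρ := ρ) (ub_const hγ))
  have g' : (H.dm h r k ρ).Sc fun z _ => γ z.1 := sc_fixed (hγ.imp fun _ b z => b z.1)
  have a1 := g.smul hk a.D
  have a2 := g.smul hk a.C
  have a3 := g'.bil (ContinuousLinearMap.lsmul ℝ ℝ) a.S
  refine ⟨a1.congr fun _ _ _ => rfl, a2.congr fun _ _ _ => rfl, a3.congr fun _ _ => rfl,
    fun i w q hq x => ?_, fun i w q hq x => ?_⟩
  · exact (map_smul _ (γ i) _).trans (congrArg (γ i • ·) (a.pD i w q hq x))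
  · exact (map_smul _ (γ i) _).trans (congrArg (γ i • ·) (a.pC i w q hq x))

/-- the perturbed equations -/
theorem cl_pert (hk : 4 ≤ k) (a : H.Cl c k ρ False fun i => (𝔉 i).eq0 r n m)
    (b : H.Cl c k ρ False τ)
    (hD : ∀ i t x y, (e i t).D x y = ((𝔉 i).eq0 r n m t).D x y - (τ i t).D x y)
    (hC : ∀ i t x y, (e i t).C x y = ((𝔉 i).eq0 r n m t).C x y - (τ i t).C x y)
    (hS : ∀ i t x, (e i t).S x = (τ i t).S x) (hR : ∀ i t x j, (e i t).R x j = ‖x.z‖ ^ 2 - 1) :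
    H.Cl c k ρ False e := by
  have z := H.sc_z (k := k) (ρ := ρ) c
  have z2 : (H.dm h r k ρ).Sc fun z y => ‖((s z.1).cfg c y.1.1 y.2.1).z‖ ^ 2 - 1 :=
    ((z.bil (innerSL ℝ) z).add (Sc.const (-1))).congr fun _ _ => by
      rw [innerSL_apply_apply, real_inner_self_eq_norm_sq]; rfl
  refine ⟨(a.D.sub hk b.D).congr fun _ _ _ => hD .., (a.C.sub hk b.C).congr fun _ _ _ => hC ..,
    (sc_prod (b.S.clm (.fst ℝ _ _)) (sc_pi fun _ : Fin m => z2)).congr fun _ _ =>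
      Prod.ext (hS ..) (funext (hR _ _ _)), fun i w q hq x => ?_, fun i w q hq x => ?_⟩
  · rw [hD]; exact (map_sub _ _ _).trans (congrArg₂ (· - ·) (a.pD i w q hq x) (b.pD i w q hq x))
  · rw [hC]; exact (map_sub _ _ _).trans (congrArg₂ (· - ·) (a.pC i w q hq x) (b.pC i w q hq x))

/-- only the values at the configurations of the sides matter -/
theorem cl_congr (a : H.Cl c k ρ ε τ) (b : ∀ i (w : Sec I (s i).bd.pC) q, q.1 ∈ (𝔉 i).Q →
    PtX.eqv (e i q.1) ((s i).cfg c w.1 q) = PtX.eqv (τ i q.1) ((s i).cfg c w.1 q)) :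
    H.Cl c k ρ ε e :=
  have d := fun i w q hq x => congrFun (congrArg (·.1) (b i w q hq)) x
  have d' := fun i w q hq x => congrFun (congrArg (·.2.1) (b i w q hq)) x
  ⟨a.D.congr fun _ y => d _ _ _ y.2.2, a.C.congr fun _ y => d' _ _ _ y.2.2,
    a.S.congr fun _ y => (congrArg (·.2.2) (b _ y.1 _ y.2.2) :), fun i w q hq x =>
      (congrArg _ (d i w q hq x)).trans ((a.pD i w q hq x).trans (d i w q hq x).symm),
    fun i w q hq x =>
      (congrArg _ (d' i w q hq x)).trans ((a.pC i w q hq x).trans (d' i w q hq x).symm)⟩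

end fmt

section nk
variable {E : Type} [NormedAddCommGroup E] [NormedSpace ℝ E] [FiniteDimensional ℝ E]
  [MeasurableSpace E] [BorelSpace E]
  {HM : Type} [TopologicalSpace HM] {I : ModelWithCorners ℝ E HM} [I.Boundaryless]
  {M : Type} [TopologicalSpace M] [ChartedSpace HM M] [IsManifold I ∞ M]
  [MeasurableSpace M] [T2Space M] [BorelSpace M] [SecondCountableTopology M]
  {E3 : Type} [NormedAddCommGroup E3] [NormedSpace ℝ E3] [FiniteDimensional ℝ E3]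
  [MeasurableSpace E3] [BorelSpace E3]
  {H3 : Type} [TopologicalSpace H3] {I3 : ModelWithCorners ℝ E3 H3} [I3.Boundaryless]
  {Y : Type} [TopologicalSpace Y] [ChartedSpace H3 Y] [IsManifold I3 ∞ Y] [T2Space Y]
  [MeasurableSpace Y] [BorelSpace Y] [SecondCountableTopology Y] [CompactSpace Y]
  {κ lam h : Type} [Fintype κ] [Fintype lam] [Fintype h] {DY : YD I3 Y κ lam}
  {T U Up R : Type} [NormedAddCommGroup T] [NormedSpace ℝ T] [NormedAddCommGroup U]
  [NormedSpace ℝ U] [NormedAddCommGroup Up] [NormedSpace ℝ Up] [NormedAddCommGroup R]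
  [NormedSpace ℝ R] {N r n m k : ℕ} {Jc : En (Fin N)} {J : Type}
  {𝔉 : J → Fam I M (Option κ) lam T} {s : ∀ i, Sid (𝔉 i) N Jc U Up R} {δ r₀ : ℝ} {ρ : ℝ≥0}
  {H : Un s δ r₀} {c : Cm N r h R} {ε : Prop} {p : J → T → Prop}
  {K : ∀ i t, p i t → Nk DY (𝔉 i).B ((𝔉 i).G t)} {ND : ND Y lam} {ν : J → T → ℝ}

theorem cl_S1 (hN : ContDiff ℝ ∞ ND.φ)
    (a : H.Cl c k ρ ε fun i t => ν i t • Q1 n m (K i) ND t) :
    H.Cl c k ρ ε fun i => S1 n m (K i) ND (ν i) := cl_congr a fun i w q hq => by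
  by_cases e : p i q.1
  · have := q1_smul (n := n) (c := (s i).cfg c w.1 q) (K i _ e) (Mp86.bumps_of_tame _ ((H.fam i).tameG _ hq).choose_spec)
      (conn_cfg (H.ok i) c w hq) hN (ν i q.1)
    rw [S1, Q1, dq, dq, dif_pos e, dif_pos e]
    exact Prod.ext (funext fun x => (this x).1) (Prod.ext (funext fun x => (this x).2)
      (smul_zero (ν i q.1) (A := (Fin n → ℂ) × (Fin m → ℝ))).symm)
  · rw [S1, Q1, dq, dq, dif_neg e, dif_neg e, smul_zero]

theorem cl_S2 (hk : 4 ≤ k) (q : YW I3 Y →₀ ℝ)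
    (a : ∀ w : YW I3 Y, H.Cl c k ρ ε fun i t => ν i t • Q2 n m (K i) ND w.1 t) :
    H.Cl c k ρ ε fun i => S2 n m (K i) ND (ν i) q :=
  (Un.Cl.sum q.support fun w _ => (a w).smul hk (q w)).congr fun i t _ => by
    rw [S2_eq, Finset.sum_apply, Finset.sum_apply]; rfl

theorem cl_off {τ : ∀ i t, p i t → PtX M (Option κ) lam r n m}
    (e : ∀ i, ∀ t ∈ (𝔉 i).Q, p i t → ν i t = 0) :
    H.Cl c k ρ ε fun i t => ν i t • dq (p i) (τ i) t := Un.Cl.zero.congr fun i t ht => by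
  by_cases a : p i t
  · exact smul_eq_zero_of_left (e i t ht a) _
  · exact smul_eq_zero_of_right _ (dif_neg a)

end nk

open M An.Job Gj67

variable {Wi : Type} {X : Mf 4} {A κ lam : Type} [Fintype A] [Fintype κ] [Fintype lam]
  [DecidableEq lam] {M : Mark X A κ} {W : World M} {L : ML M lam} {Λ : Lns W L}
  {A' h : Type} [Fintype A'] [DecidableEq A'] [Fintype h] {r n k : ℕ} {J : Job Wi Λ A' h r n}
  {U Up R : Type} [NormedAddCommGroup U] [NormedSpace ℝ U] [NormedAddCommGroup Up]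
  [NormedSpace ℝ Up] [NormedAddCommGroup R] [NormedSpace ℝ R]
  {T : Type} [NormedAddCommGroup T] [NormedSpace ℝ T] {c : M.Cl} {ι : Type}
  {G0 : ι → Geo (W.Z c).I (W.Z c).M (Option κ) (lam ⊕ lam)} {θ : ι → T → A' → ℝ}
  {Q : ι → Set T} {N : ℕ} {Jc : En (Fin N)}
  {s : ∀ i, Sid (jF J c (G0 i) (θ i) (Q i)) N Jc U Up R} {Ω : Set (W.Z c).M} {δ r₀ : ℝ} {ρ : ℝ≥0}
  (H : Un s δ r₀) (cm : Cm N r h R)

variable (J G0 θ Q) in
/-- the necks along the families -/
abbrev KJ (x : A) (b : Option Bool) (i : ι) (t : T) (e : J.Ac c (θ i t) (x, b)) :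
    Nk (J.xs x).D (jF J c (G0 i) (θ i) (Q i)).B ((jF J c (G0 i) (θ i) (Q i)).G t) :=
  J.K c x b _ e

variable (k ρ) in
/-- the terms of a neck lie in the calculus -/
structure NkC (x : A) (b : Option Bool) : Prop where
  q1 : H.Cl cm k ρ False fun i =>
    S1 n (min r 1) (KJ J G0 θ Q x b i) (J.xs x).N fun t => J.ν x (θ i t)
  q2 : ∀ w, H.Cl cm k ρ False fun i =>
    S2 n (min r 1) (KJ J G0 θ Q x b i) (J.xs x).N (fun t => J.ν x (θ i t)) ((J.xs x).ty w)

variable (J G0 θ Q r₀) in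
/-- the parameters are uniformly smooth and bounded -/
structure Th : Prop where
  co : Co (fun i => jF J c (G0 i) (θ i) (Q i)) r₀ θ
  bd : ∃ K, IsCompact K ∧ ∀ i, MapsTo (θ i) (Q i) K

/-- coefficients with bounded support and size -/
structure Qb (q : ι → Wi →₀ ℝ) (S : Finset Wi) : Prop where
  sub : ∀ i, (q i).support ⊆ S
  bv : ∀ w, Bv fun i => q i w

theorem qb_cst (q : Wi →₀ ℝ) : Qb (fun _ : ι => q) q.support :=
  ⟨fun _ => Finset.Subset.refl _, fun _ => Bv.const _⟩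

variable (J G0 θ Q) in
/-- the equations -/
abbrev εJ (q : ι → Wi →₀ ℝ) (i : ι) : Eqn (jF J c (G0 i) (θ i) (Q i)) r n (min r 1) (J.cut c) :=
  ⟨fun t => eqX J c (q i) (θ i t), fun t => J.σc c (q i) (θ i t)⟩

variable {H cm}

theorem Th.fn (a : Th J G0 θ Q r₀) (H : Un s δ r₀) {f : (A' → ℝ) → ℝ} (hf : ContDiff ℝ ∞ f) :
    Co (fun i => jF J c (G0 i) (θ i) (Q i)) r₀ fun i t => f (θ i t) :=
  let ⟨_, b, e⟩ := a.bd
  a.co.cmp (fun i => (H.fam i).opn) H.sub isOpen_univ b (subset_univ _) hf.contDiffOn e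

theorem nkC_off (hJ : J.OK) (hk : 4 ≤ k) {x : A} {b : Option Bool}
    (e : ∀ i, ∀ t ∈ Q i, J.Ac c (θ i t) (x, b) → J.ν x (θ i t) = 0) : NkC k ρ H cm x b :=
  ⟨cl_S1 (hJ.xs x).2.sm (cl_off e), fun _ => cl_S2 hk _ fun _ => cl_off e⟩

theorem nkC_nil {x : A} {b : Option Bool} (e : Ink3.Nil (J.xs x).N) (e' : (J.xs x).ty = 0) :
    NkC k ρ H cm x b := by
  refine ⟨Un.Cl.zero.congr fun i t ht => ?_, fun w => Un.Cl.zero.congr fun i t ht => ?_⟩
  · rw [S1, dq]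
    split_ifs with a
    · rw [(e.smul _).q1]; rfl
    · rfl
  · rw [S2_eq, e']; rfl

variable (hJ : J.OK) (hk : 7 ≤ k) (a : Th J G0 θ Q r₀) (ca : Ca k H cm ρ Ω)
  {q : ι → Wi →₀ ℝ} {S : Finset Wi} (tm : ∀ w ∈ S, TmA J θ Q Ω w) (hq : Qb q S)
include hJ hk a ca tm hq

/-- **the field equations** -/
theorem cl_eqX (nk : ∀ x b, NkC k ρ H cm x b) :
    H.Cl cm k ρ False fun i => (εJ J G0 θ Q q i).e := by
  have h4 : 4 ≤ k := by omega
  have tw : ∀ w ∈ S, H.Cl cm k ρ False fun i t => J.co w (θ i t) •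
      px (min r 1) (tmP (J.B c) (J.G c (θ i t)).F ((J.tp c).tm (J.tw w))) := fun w hw =>
    (tm w hw).tw.elim (fun e => Un.Cl.zero.congr fun i t ht => smul_eq_zero_of_left (e i t ht) _)
      fun e => let b := a.fn H (hJ.co w); (ca.tm n _ _ e).par b.sm b.bn
  have b0 := Un.Cl.sum Finset.univ fun (i : A × Option Bool) _ => (nk i.1 i.2).q1
  have bw := fun w hw => (tw w hw).add
    (Un.Cl.sum Finset.univ fun (i : A × Option Bool) _ => (nk i.1 i.2).q2 w)
  have b := b0.add (Un.Cl.sum S fun w hw => cl_cst h4 (hq.bv w) (bw w hw))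
  refine cl_pert h4 (ca.eq0 _ _) (b.congr (e' := fun i t => px _ (J.τ c (q i) (θ i t)))
    fun i t _ => ?_) (fun _ _ _ _ => rfl) (fun _ _ _ _ => rfl) (fun _ _ _ => rfl) fun _ _ _ _ => rfl
  rw [Job.τ, px_add, px_fsum, Finsupp.sum_of_support_subset _ (hq.sub i) _ fun _ _ => by
    exact zero_smul _ _]
  simp only [Job.τ0, Job.τw, px_add, px_smul, px_dsum, Pi.add_apply, Finset.sum_apply]
  rfl

/-- **the rows of the cuts** -/
theorem cr (CS : CutStmt2 (W.Z c).I (W.Z c).M (lam ⊕ lam)) (lo : Lo s Ω)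
    (ct : ∀ j, CtU s Ω (J.cut c j)) : H.Cr k ρ cm (εJ J G0 θ Q q) := fun j =>
  CS _ _ _ _ _ _ _ _ _ _ _ _ _ s δ r₀ ρ H cm Ω _ S (fun w => (J.tp c).tc (J.tc j w))
    (fun w i t => q i w * J.cc j w (θ i t)) (fun i t => J.σc c (q i) (θ i t) j) j hk ca.W lo (ct j)
    (fun w _ => .of ((UC.const (hq.bv w)).smul
      ((a.fn H (hJ.cc j w)).uc (fun i => (H.fam i).opn) H.sub)))
    (fun w hw => ((tm w hw).tc j).imp (fun e i t ht => mul_eq_zero_of_right _ (e i t ht))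
      (ca.xi _ _))
    fun i t _ x => Finsupp.sum_of_support_subset _ (hq.sub i) _ fun _ _ => by
      rw [zero_mul]; exact zero_smul _ _

/-- **Lipschitz bounds for a job** -/
theorem lip (CS : CutStmt2 (W.Z c).I (W.Z c).M (lam ⊕ lam)) (lo : Lo s Ω) (G : Gm s Ω)
    (ct : ∀ j, CtU s Ω (J.cut c j)) (nk : ∀ x b, NkC k ρ H cm x b) : ∃ C : ℝ≥0, ∀ i,
    ((s i).sd cm (εJ J G0 θ Q q i)).Ok r₀ ∧ ((s i).sd cm (εJ J G0 θ Q q i)).Lip δ k r₀ ρ C :=
  have h4 : 4 ≤ k := by omega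
  have b := cl_eqX hJ hk a ca tm hq nk
  let ⟨C, e⟩ := b.lip G h4 (Un.sc_eR G h4 b (cr hJ hk a ca tm hq CS lo ct))
  ⟨C, fun i => ⟨b.ok h4 (fun i => (s i).eR cm (εJ J G0 θ Q q i)) i, e i⟩⟩

end Crest.Agent.X212.Lpe67
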