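import Crest.Agent.X212.Gla92.Nk
import Crest.Agent.X212.Lpe67.Job

/-! # Row 212, GL (helper67): the neck terms of a job lie in the calculus -/

set_option autoImplicit false
set_option linter.unusedSectionVars false
set_option maxSynthPendingDepth 3
noncomputable section
open scoped Manifold ContDiff Topology InnerProductSpace ENNReal NNReal
open MeasureTheory Set Function Filter Metric

namespace Crest.Agent.X212.Lpe67
open An Sob92 Prm93 Mod61 Mon62 Mon62.Dm Gl67 Gla92 Nd18 M An.Job Gj67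

variable {Wi : Type} {X : Mf 4} {A κ lam : Type} [Fintype A] [Fintype κ] [Fintype lam]
  [DecidableEq lam] {M : Mark X A κ} {W : World M} {L : ML M lam} {Λ : Lns W L}
  {A' h : Type} [Fintype A'] [DecidableEq A'] [Fintype h] {r n k : ℕ} {J : Job Wi Λ A' h r n}
  {U Up R : Type} [NormedAddCommGroup U] [NormedSpace ℝ U] [NormedAddCommGroup Up]
  [NormedSpace ℝ Up] [NormedAddCommGroup R] [NormedSpace ℝ R]
  {T : Type} [NormedAddCommGroup T] [NormedSpace ℝ T] {c : M.Cl} {ι : Type}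
  {G0 : ι → Geo (W.Z c).I (W.Z c).M (Option κ) (lam ⊕ lam)} {θ : ι → T → A' → ℝ}
  {Q : ι → Set T} {N : ℕ} {Jc : En (Fin N)}
  {s : ∀ i, Sid (jF J c (G0 i) (θ i) (Q i)) N Jc U Up R} {Ω : Set (W.Z c).M} {δ r₀ : ℝ} {ρ : ℝ≥0}
  {H : Un s δ r₀} {cm : Cm N r h R}

/-- **necks** -/
theorem nkC_of (hJ : J.OK) (o : (H.kf cm k ρ).OK False (k + 1)) (V : Uv s δ r₀) (G : Gm s Ω)
    (lo : Lo s Ω) (a : Th J G0 θ Q r₀) {x : A} {b : Option Bool} (hd : 2 * δ < (J.xs x).N.δ)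
    (nk : NkA s Ω x b) : NkC k ρ H cm x b := by
  have hk : 4 ≤ k := by have := o.hj; omega
  have hN := (hJ.xs x).2
  have ν := a.fn H (hJ.ν x)
  rcases nk with e | ⟨ac, e | ⟨e, e'⟩⟩
  · exact nkC_off hJ hk e
  · obtain ⟨b1, b2⟩ := e.cl (n := n) (m := min r 1) o V G hN lo a.co
    refine ⟨cl_S1 hN.sm ((b1.par ν.sm ν.bn).congr fun i t ht => ?_),
      fun _ => cl_S2 hk _ fun w => ((b2 w).par ν.sm ν.bn).congr fun i t ht => ?_⟩
    · rw [Q1, Q1, dq, dq, dif_pos (ac i t ht), dif_pos ht]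
    · rw [Q2, Q2, dq, dq, dif_pos (ac i t ht), dif_pos ht]
  · obtain ⟨b1, b2⟩ := e.cl (n := n) (m := min r 1) o V G hN hd
    refine ⟨cl_S1 hN.sm (b1.congr fun i t ht => ?_),
      fun _ => cl_S2 hk _ fun w => (b2 w).congr fun i t ht => ?_⟩ <;> rw [e' i t ht, one_smul]
    · rw [Q1, Q1, dq, dq, dif_pos (ac i t ht), dif_pos ht]
    · rw [Q2, Q2, dq, dq, dif_pos (ac i t ht), dif_pos ht]

end Crest.Agent.X212.Lpe67
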